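import Vale.Agent.P153D.Props

/-!
Synthesis: rapidly decreasing combinations of test functions of polynomial growth converge.
-/

set_option autoImplicit false
set_option linter.all false

namespace Vale.Agent.P153DS

open Vale.Agent.P153D MeasureTheory Filter Topology Set TopologicalSpace

theorem tail_le {G ι : Type} [NormedAddCommGroup G] [CompleteSpace G] (u : ι → G) (v : ι → ℝ)
    (hv : Summable v) (h : ∀ k, ‖u k‖ ≤ v k) (s : Finset ι) :
    ‖∑ k ∈ s, u k - ∑' k, u k‖ ≤ ∑' k : {k // k ∉ s}, v k := by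
  have hu : Summable u := Summable.of_norm_bounded hv h
  rw [← hu.sum_add_tsum_subtype_compl s, sub_add_cancel_left, norm_neg]
  exact tsum_of_norm_bounded (hv.subtype _).hasSum fun k => h k

theorem hasSum_der {K : Compacts ℂ} {ι : Type} (f : ι → ContDiffMapSupportedIn ℂ ℝ ⊤ K)
    (Φ : ContDiffMapSupportedIn ℂ ℝ ⊤ K) (v : ℕ → ι → ℝ) (hv : ∀ i, Summable (v i))
    (hf : ∀ i k x, ‖iteratedFDeriv ℝ i (f k) x‖ ≤ v i k)
    (hΦ : ∀ i x, iteratedFDeriv ℝ i Φ x = ∑' k, iteratedFDeriv ℝ i (f k) x) : HasSum f Φ := by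
  unfold HasSum
  rw [(ContDiffMapSupportedIn.withSeminorms ℝ ℂ ℝ ⊤ K).tendsto_nhds]
  intro i ε hε
  have h1 := (tendsto_tsum_compl_atTop_zero (v i)).eventually (gt_mem_nhds hε)
  refine h1.mono fun s hs => lt_of_le_of_lt ?_ hs
  have h0 : 0 ≤ ∑' k : {k // k ∉ s}, v i k :=
    tsum_nonneg fun k => (norm_nonneg _).trans (hf i k 0)
  rw [ContDiffMapSupportedIn.seminorm_top_le_iff ℝ h0]
  intro x _
  have hc : ∀ g : ContDiffMapSupportedIn ℂ ℝ ⊤ K, ContDiff ℝ i g := fun g =>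
    g.contDiff.of_le (by exact_mod_cast le_top)
  have e1 : ((∑ b ∈ s, f b - Φ : ContDiffMapSupportedIn ℂ ℝ ⊤ K) : ℂ → ℝ) =
      ((∑ b ∈ s, f b : ContDiffMapSupportedIn ℂ ℝ ⊤ K) : ℂ → ℝ) - Φ := rfl
  have e2 : ∀ t : Finset ι, iteratedFDeriv ℝ i
      ((∑ b ∈ t, f b : ContDiffMapSupportedIn ℂ ℝ ⊤ K) : ℂ → ℝ) x =
      ∑ b ∈ t, iteratedFDeriv ℝ i (f b) x := by
    intro t
    classical
    induction t using Finset.induction_on with
    | empty =>
      have e : ((0 : ContDiffMapSupportedIn ℂ ℝ ⊤ K) : ℂ → ℝ) = 0 := rfl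
      simp only [Finset.sum_empty, e]
      simp
    | insert a t ha ih =>
      have e : ((f a + ∑ b ∈ t, f b : ContDiffMapSupportedIn ℂ ℝ ⊤ K) : ℂ → ℝ) =
        (f a : ℂ → ℝ) + ((∑ b ∈ t, f b : ContDiffMapSupportedIn ℂ ℝ ⊤ K) : ℂ → ℝ) := rfl
      rw [Finset.sum_insert ha, Finset.sum_insert ha, e,
        iteratedFDeriv_add_apply (hc _).contDiffAt (hc _).contDiffAt, ih]
  rw [e1, iteratedFDeriv_sub_apply (hc _).contDiffAt (hc _).contDiffAt, e2, hΦ]
  exact tail_le _ _ (hv i) (fun k => hf i k x) s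

/-- Series with summable bounds on all derivatives converge in the space of smooth functions
supported in a compact set. -/
theorem hasSum_supp {K : Compacts ℂ} {ι : Type} (f : ι → ContDiffMapSupportedIn ℂ ℝ ⊤ K)
    (v : ℕ → ι → ℝ) (hv : ∀ i, Summable (v i))
    (hf : ∀ i k x, ‖iteratedFDeriv ℝ i (f k) x‖ ≤ v i k) :
    ∃ Φ : ContDiffMapSupportedIn ℂ ℝ ⊤ K, HasSum f Φ := by
  have hc : ∀ k, ContDiff ℝ ((⊤ : ℕ∞) : WithTop ℕ∞) (f k) := fun k => (f k).contDiff
  have h1 : ContDiff ℝ ((⊤ : ℕ∞) : WithTop ℕ∞) fun x => ∑' k, f k x :=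
    contDiff_tsum (v := v) hc (fun i _ => hv i) (fun i k x _ => hf i k x)
  have h2 : EqOn (fun x => ∑' k, f k x) 0 (K : Set ℂ)ᶜ := fun x hx => by
    have : ∀ k, f k x = 0 := fun k => (f k).zero_on_compl hx
    simp [this]
  refine ⟨⟨fun x => ∑' k, f k x, h1, h2⟩, hasSum_der f _ v hv hf fun i x => ?_⟩
  exact iteratedFDeriv_tsum_apply (v := v) (N := ⊤) hc (fun i _ => hv i)
    (fun i k x _ => hf i k x) le_top x

theorem syn : SYN := by
  intro Ω K hK hKΩ ι w ψ hw hsum hsupp hder a ha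
  let K' : Compacts ℂ := ⟨K, hK⟩
  have hK' : (K' : Set ℂ) ⊆ Ω := hKΩ
  let g : ι → ContDiffMapSupportedIn ℂ ℝ ⊤ K' := fun k =>
    ContDiffMapSupportedIn.of_support_subset (ψ k).contDiff ((subset_tsupport _).trans (hsupp k))
  have hg : ∀ k, (g k : ℂ → ℝ) = ψ k := fun k => rfl
  choose C hC using hder
  choose D hD using ha
  obtain ⟨Φ, hΦ⟩ := hasSum_supp (fun k => a k • g k)
    (fun i k => (|C i| * D (i + 3)) * (w k ^ 3)⁻¹) (fun i => hsum.mul_left _) (by
      intro i k x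
      have hw0 : 0 < w k := lt_of_lt_of_le one_pos (hw k)
      have e : ((a k • g k : ContDiffMapSupportedIn ℂ ℝ ⊤ K') : ℂ → ℝ) = a k • (ψ k : ℂ → ℝ) := rfl
      rw [e, iteratedFDeriv_const_smul_apply
        (((ψ k).contDiff.of_le (by exact_mod_cast le_top)).contDiffAt), norm_smul,
        Real.norm_eq_abs]
      have h1 : ‖iteratedFDeriv ℝ i (ψ k) x‖ ≤ |C i| * w k ^ i :=
        (hC i k x).trans (mul_le_mul_of_nonneg_right (le_abs_self _) (by positivity))
      have h2 := hD (i + 3) k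
      rw [← div_eq_mul_inv, le_div_iff₀ (by positivity)]
      calc |a k| * ‖iteratedFDeriv ℝ i (ψ k) x‖ * w k ^ 3
          ≤ |a k| * (|C i| * w k ^ i) * w k ^ 3 := by gcongr
        _ = |C i| * (|a k| * w k ^ (i + 3)) := by ring
        _ ≤ |C i| * D (i + 3) := by gcongr)
  refine ⟨TestFunction.ofSupportedInCLM ℝ hK' Φ, ?_⟩
  have := (TestFunction.ofSupportedInCLM ℝ hK').hasSum hΦ
  have e : (fun k => TestFunction.ofSupportedInCLM ℝ hK' (a k • g k)) = fun k => a k • ψ k := by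
    funext k
    ext x
    rfl
  rw [e] at this
  exact this

end Vale.Agent.P153DS
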